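import Mathlib.Algebra.Lie.Killing
import Mathlib.Algebra.Lie.CartanCriterion
import Mathlib.Algebra.Lie.Derivation.Killing
import Mathlib.Algebra.Lie.Sl2
import Mathlib.LinearAlgebra.Matrix.ToLin
import Mathlib.Topology.Instances.Matrix
import Mathlib.Topology.Algebra.Group.Matrix
import Mathlib.Analysis.Normed.Field.Basic

/-!
P092, project RP (helper213): all isotropic simple groups over non-archimedean local fields of
characteristic zero as factors. Definitions.

`L` is a simple Lie algebra over `k` with a nonzero ad-nilpotent element and `G` is the group of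
automorphisms of `L` which is generated by the exponentials of the ad-nilpotent elements.
-/

set_option linter.all false

open Filter Topology Module

namespace Vale.Agent.P092.H213.Rp

section alg

variable {k L : Type} [Field k]

/-- The exponential of a nilpotent endomorphism. -/
noncomputable def ex [AddCommGroup L] [Module k L] (X : Module.End k L) : Module.End k L :=
  ∑ i ∈ Finset.range (finrank k L + 1), ((i.factorial : k)⁻¹) • X ^ i

variable [LieRing L] [LieAlgebra k L]

variable (k) in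
/-- ad-nilpotent elements -/
def Nil (x : L) : Prop := IsNilpotent (LieAlgebra.ad k L x)

variable (k) in
/-- `exp (ad x)` -/
noncomputable def eu (x : L) : Module.End k L := ex (LieAlgebra.ad k L x)

variable (k) in
/-- the eigenspace of `ad h` -/
def egs (h : L) (i : ℤ) : Submodule k L := (LieAlgebra.ad k L h).eigenspace (i : k)

variable (k) in
/-- split elements with integral eigenvalues -/
def Spl (h : L) : Prop := ⨆ i : ℤ, egs k h i = ⊤

variable (k) in
/-- the sum of the eigenspaces with eigenvalue in `S` -/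
def egS (h : L) (S : Set ℤ) : Submodule k L := ⨆ i : ℤ, ⨆ _ : i ∈ S, egs k h i

/-- automorphisms of the Lie algebra `L` -/
def IsAut (T : Module.End k L) : Prop := IsUnit T ∧ ∀ x y : L, T ⁅x, y⁆ = ⁅T x, T y⁆

end alg

section top

variable {k : Type} [NontriviallyNormedField k] {L : Type} [LieRing L] [LieAlgebra k L] {n : ℕ}
  {G : Type} [Group G] [TopologicalSpace G]

/-- `ρ` identifies the topological group `G` with the (closed) group of automorphisms of the simple,
isotropic Lie algebra `L` which is generated by the exponentials of the ad-nilpotent elements. -/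
structure RP (b : Basis (Fin n) k L) (ρ : G →* Module.End k L) : Prop where
  simple : LieAlgebra.IsSimple k L
  iso : ∃ x : L, x ≠ 0 ∧ Nil k x
  emb : IsClosedEmbedding fun g => LinearMap.toMatrix b b (ρ g)
  lie : ∀ g (x y : L), ρ g ⁅x, y⁆ = ⁅ρ g x, ρ g y⁆
  full : ∀ x : L, Nil k x → ∃ g, ρ g = eu k x
  gen : Subgroup.closure {g : G | ∃ x : L, Nil k x ∧ ρ g = eu k x} = ⊤

/-- The same with an embedding only (the class of the final statement). -/
structure RP0 (b : Basis (Fin n) k L) (ρ : G →* Module.End k L) : Prop where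
  simple : LieAlgebra.IsSimple k L
  iso : ∃ x : L, x ≠ 0 ∧ Nil k x
  emb : IsEmbedding fun g => LinearMap.toMatrix b b (ρ g)
  lie : ∀ g (x y : L), ρ g ⁅x, y⁆ = ⁅ρ g x, ρ g y⁆
  full : ∀ x : L, Nil k x → ∃ g, ρ g = eu k x
  gen : Subgroup.closure {g : G | ∃ x : L, Nil k x ∧ ρ g = eu k x} = ⊤

end top

section torus

variable {k L : Type} [Field k] [LieRing L] [LieAlgebra k L] {n r : ℕ}

/-- the weight space -/
def W (b : Basis (Fin n) k L) (wt : Fin n → Fin r → ℤ) (μ : Fin r → ℤ) : Submodule k L :=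
  Submodule.span k {x | ∃ i, wt i = μ ∧ b i = x}

/-- Roots relative to a maximal split torus, in a basis of weight vectors: `wt i` are the
coordinates of the weight of `b i` in terms of the simple roots. -/
structure Rt (b : Basis (Fin n) k L) (wt : Fin n → Fin r → ℤ) (E F H : Fin r → L) : Prop where
  pos : 0 < r
  grad : ∀ μ ν : Fin r → ℤ, ∀ x ∈ W b wt μ, ∀ y ∈ W b wt ν, ⁅x, y⁆ ∈ W b wt (μ + ν)
  sgn : ∀ i, (∀ a, 0 ≤ wt i a) ∨ (∀ a, wt i a ≤ 0)
  tri : ∀ a, IsSl2Triple (H a) (E a) (F a)
  wE : ∀ a, E a ∈ W b wt (Pi.single a 1)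
  wF : ∀ a, F a ∈ W b wt (-Pi.single a 1)
  wH : ∀ a, ∃ c : Fin r → ℤ, ∀ i, ⁅H a, b i⁆ = ((∑ j, wt i j * c j : ℤ) : k) • b i
  /-- the centraliser of the torus is anisotropic -/
  aniso : ∀ x ∈ W b wt 0, Nil k x → x = 0
  /-- maximality of the torus -/
  max : ∀ x ∈ W b wt 0, Spl k x → ∃ c : Fin r → ℚ, ∀ i, ⁅x, b i⁆ = ((∑ j, (wt i j : ℚ) * c j : ℚ) : k) • b i
  pair : ∀ μ, μ ≠ 0 → ∀ x ∈ W b wt μ, ∀ y ∈ W b wt (-μ), x ≠ 0 → y ≠ 0 → ⁅x, y⁆ ≠ 0
  gen : LieSubalgebra.lieSpan k L {x | x ∈ W b wt 0 ∨ ∃ a, x ∈ W b wt (Pi.single a 1) ∨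
    x ∈ W b wt (-Pi.single a 1)} = ⊤

/-- the torus elements, as automorphisms of `L` -/
noncomputable def tor (b : Basis (Fin n) k L) (wt : Fin n → Fin r → ℤ) (t : Fin r → kˣ) :
    Module.End k L :=
  b.constr k fun i => ((∏ a, t a ^ wt i a : kˣ) : k) • b i

end torus

end Vale.Agent.P092.H213.Rp
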