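import Vale.Agent.P092.H213.Rp.Defs
import Mathlib.RingTheory.Nilpotent.Exp
import Mathlib.Algebra.Lie.Derivation.Basic
import Mathlib.LinearAlgebra.Eigenspace.Zero

/-!
P092, project RP (helper213): algebraic facts on the exponentials of ad-nilpotent elements.
-/

set_option linter.all false

open Module

namespace Vale.Agent.P092.H213.Rp

section lin

variable {k L : Type} [Field k] [CharZero k] [AddCommGroup L] [Module k L] [Module.Finite k L]

theorem pow_fin {X : Module.End k L} (hX : IsNilpotent X) {m : ℕ} (hm : finrank k L ≤ m) :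
    X ^ m = 0 := by
  have h1 := (LinearMap.isNilpotent_iff_charpoly X).1 hX
  have h2 : X ^ finrank k L = 0 := by
    have := LinearMap.aeval_self_charpoly X
    rw [h1] at this
    simpa using this
  rw [← Nat.sub_add_cancel hm, pow_add, h2, mul_zero]

variable (k L) in
/-- the rational structure -/
@[reducible] noncomputable def ratMod : Module ℚ L := Module.compHom L (algebraMap ℚ k)

variable (k L) in
theorem ratTow : letI := ratMod k L; IsScalarTower ℚ k L := by
  letI := ratMod k L
  refine ⟨fun q a v => ?_⟩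
  show (q • a) • v = (algebraMap ℚ k q) • (a • v)
  rw [Algebra.smul_def, mul_smul]

/-- `ex` is the exponential of Mathlib -/
theorem ex_eq [Module ℚ L] [IsScalarTower ℚ k L] {X : Module.End k L} (hX : IsNilpotent X) :
    ex X = IsNilpotent.exp X := by
  rw [IsNilpotent.exp_eq_sum (pow_fin hX (Nat.le_succ _))]
  unfold ex
  refine Finset.sum_congr rfl fun i _ => ?_
  refine LinearMap.ext fun v => ?_
  rw [LinearMap.smul_apply, LinearMap.smul_apply]
  set w := (X ^ i) v
  have : ((i.factorial : k)⁻¹) • w = ((i.factorial : ℚ)⁻¹ • (1 : k)) • w := by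
    congr 1
    rw [Algebra.smul_def, mul_one]
    simp
  rw [this, smul_assoc, one_smul]

theorem ex_zero : ex (0 : Module.End k L) = 1 := by
  letI := ratMod k L
  haveI := ratTow k L
  rw [ex_eq IsNilpotent.zero, IsNilpotent.exp_zero]

theorem ex_add {X Y : Module.End k L} (hXY : Commute X Y) (hX : IsNilpotent X)
    (hY : IsNilpotent Y) : ex (X + Y) = ex X * ex Y := by
  letI := ratMod k L
  haveI := ratTow k L
  rw [ex_eq hX, ex_eq hY, ex_eq (hXY.isNilpotent_add hX hY),
    IsNilpotent.exp_add_of_commute hXY hX hY]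

theorem ex_mul_neg {X : Module.End k L} (hX : IsNilpotent X) : ex X * ex (-X) = 1 := by
  rw [← ex_add (Commute.neg_right (Commute.refl X)) hX hX.neg, add_neg_cancel, ex_zero]

theorem ex_neg_mul {X : Module.End k L} (hX : IsNilpotent X) : ex (-X) * ex X = 1 := by
  rw [← ex_add (Commute.neg_left (Commute.refl X)) hX.neg hX, neg_add_cancel, ex_zero]

theorem ex_conj {X T S : Module.End k L} (hTS : T * S = 1) (hST : S * T = 1) :
    ex (T * X * S) = T * ex X * S := by
  have hp : ∀ i : ℕ, (T * X * S) ^ i = T * X ^ i * S := by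
    intro i
    induction i with
    | zero => simp [hTS]
    | succ i ih =>
      rw [pow_succ, ih, pow_succ]
      calc T * X ^ i * S * (T * X * S) = T * X ^ i * (S * T) * X * S := by
            simp only [mul_assoc]
        _ = T * (X ^ i * X) * S := by rw [hST, mul_one]; simp only [mul_assoc]
  unfold ex
  rw [Finset.mul_sum, Finset.sum_mul]
  refine Finset.sum_congr rfl fun i _ => ?_
  rw [hp, mul_smul_comm, smul_mul_assoc]

end lin

section lie

variable {k L : Type} [Field k] [CharZero k] [LieRing L] [LieAlgebra k L] [Module.Finite k L]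

theorem IsAut.one : IsAut (1 : Module.End k L) := ⟨isUnit_one, fun x y => rfl⟩

theorem IsAut.mul {S T : Module.End k L} (hS : IsAut S) (hT : IsAut T) : IsAut (S * T) :=
  ⟨hS.1.mul hT.1, fun x y => by
    rw [Module.End.mul_apply, hT.2, hS.2, Module.End.mul_apply, Module.End.mul_apply]⟩

theorem IsAut.exists_inv {T : Module.End k L} (hT : IsAut T) :
    ∃ S : Module.End k L, IsAut S ∧ T * S = 1 ∧ S * T = 1 := by
  obtain ⟨u, rfl⟩ := hT.1
  refine ⟨(↑u⁻¹ : Module.End k L), ⟨u⁻¹.isUnit, fun x y => ?_⟩, u.mul_inv, u.inv_mul⟩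
  have h1 : ∀ z : L, (↑u⁻¹ : Module.End k L) ((↑u : Module.End k L) z) = z := fun z => by
    rw [← Module.End.mul_apply, u.inv_mul, Module.End.one_apply]
  have h2 : ∀ z : L, (↑u : Module.End k L) ((↑u⁻¹ : Module.End k L) z) = z := fun z => by
    rw [← Module.End.mul_apply, u.mul_inv, Module.End.one_apply]
  rw [← h1 ⁅(↑u⁻¹ : Module.End k L) x, (↑u⁻¹ : Module.End k L) y⁆, hT.2, h2, h2]

theorem isAut_of_inv {T S : Module.End k L} (h : ∀ x y : L, T ⁅x, y⁆ = ⁅T x, T y⁆)
    (hTS : T * S = 1) (hST : S * T = 1) : IsAut T := ⟨⟨⟨T, S, hTS, hST⟩, rfl⟩, h⟩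

/-- an automorphism as an equivalence -/
noncomputable def IsAut.equiv {T : Module.End k L} (hT : IsAut T) : L ≃ₗ⁅k⁆ L :=
  { LinearEquiv.ofBijective T ((Module.End.isUnit_iff T).1 hT.1) with
    map_lie' := by
      intro x y
      exact hT.2 x y }

theorem IsAut.equiv_apply {T : Module.End k L} (hT : IsAut T) (x : L) : hT.equiv x = T x := rfl

/-- `T (ad x) T⁻¹ = ad (T x)` -/
theorem IsAut.ad {T : Module.End k L} (hT : IsAut T) (x : L) :
    T * LieAlgebra.ad k L x = LieAlgebra.ad k L (T x) * T := by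
  refine LinearMap.ext fun y => ?_
  show T ⁅x, y⁆ = ⁅T x, T y⁆
  exact hT.2 x y

theorem IsAut.ad_conj {T S : Module.End k L} (hT : IsAut T) (hTS : T * S = 1) (x : L) :
    LieAlgebra.ad k L (T x) = T * LieAlgebra.ad k L x * S := by
  rw [hT.ad, mul_assoc, hTS, mul_one]

theorem IsAut.nil {T : Module.End k L} (hT : IsAut T) {x : L} (hx : Nil k x) : Nil k (T x) := by
  obtain ⟨S, hS, hTS, hST⟩ := hT.exists_inv
  obtain ⟨m, hm⟩ := hx
  refine ⟨m, ?_⟩
  rw [hT.ad_conj hTS]
  have hp : ∀ i : ℕ, (T * LieAlgebra.ad k L x * S) ^ i = T * LieAlgebra.ad k L x ^ i * S := by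
    intro i
    induction i with
    | zero => simp [hTS]
    | succ i ih =>
      rw [pow_succ, ih, pow_succ]
      calc T * LieAlgebra.ad k L x ^ i * S * (T * LieAlgebra.ad k L x * S)
          = T * LieAlgebra.ad k L x ^ i * (S * T) * LieAlgebra.ad k L x * S := by
            simp only [mul_assoc]
        _ = T * (LieAlgebra.ad k L x ^ i * LieAlgebra.ad k L x) * S := by
            rw [hST, mul_one]; simp only [mul_assoc]
  rw [hp, hm, mul_zero, zero_mul]

theorem IsAut.eu {T S : Module.End k L} (hT : IsAut T) (hTS : T * S = 1) (hST : S * T = 1)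
    (x : L) : eu k (T x) = T * eu k x * S := by
  unfold Rp.eu
  rw [hT.ad_conj hTS, ex_conj hTS hST]

theorem Nil.smul {x : L} (hx : Nil k x) (t : k) : Nil k (t • x) := by
  unfold Nil
  rw [map_smul]
  exact IsNilpotent.smul hx t

theorem Nil.neg {x : L} (hx : Nil k x) : Nil k (-x) := by
  unfold Nil
  rw [map_neg]
  exact IsNilpotent.neg hx

theorem nil_zero : Nil k (0 : L) := by
  unfold Nil
  rw [map_zero]
  exact IsNilpotent.zero

theorem eu_zero : eu k (0 : L) = 1 := by
  unfold eu
  rw [map_zero, ex_zero]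

theorem eu_smul_add {x : L} (hx : Nil k x) (s t : k) :
    eu k ((s + t) • x) = eu k (s • x) * eu k (t • x) := by
  unfold eu
  rw [add_smul, map_add, ex_add _ (hx.smul s) (hx.smul t)]
  rw [map_smul, map_smul]
  exact ((Commute.refl _).smul_left s).smul_right t

theorem eu_mul_neg {x : L} (hx : Nil k x) : eu k x * eu k (-x) = 1 := by
  unfold eu
  rw [map_neg]
  exact ex_mul_neg hx

theorem eu_neg_mul {x : L} (hx : Nil k x) : eu k (-x) * eu k x = 1 := by
  unfold eu
  rw [map_neg]
  exact ex_neg_mul hx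

theorem eu_isAut {x : L} (hx : Nil k x) : IsAut (eu k x) := by
  letI := ratMod k L
  haveI := ratTow k L
  letI : LieAlgebra ℚ L :=
    { ratMod k L with
      lie_smul := fun q x y => by
        show ⁅x, (algebraMap ℚ k q) • y⁆ = (algebraMap ℚ k q) • ⁅x, y⁆
        rw [lie_smul] }
  let D : LieDerivation k L L := LieDerivation.ad k L x
  have e : D.toLinearMap = LieAlgebra.ad k L x := LinearMap.ext fun y =>
    LieDerivation.ad_apply_apply (R := k) (L := L) x y
  have hD : IsNilpotent D.toLinearMap := by rw [e]; exact hx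
  refine isAut_of_inv (S := eu k (-x)) (fun y z => ?_) (eu_mul_neg hx) (eu_neg_mul hx)
  have h1 := (LieDerivation.exp D hD).map_lie y z
  have h2 : ∀ w, LieDerivation.exp D hD w = eu k x w := fun w => by
    rw [LieDerivation.exp_map_apply, e]
    unfold eu
    rw [ex_eq hx]
  rwa [h2, h2, h2] at h1

end lie

end Vale.Agent.P092.H213.Rp
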