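import Vale.Agent.P092.H213.Rp.Crv
import Vale.Agent.P092.H213.Rp.Exu
import Mathlib.Topology.Algebra.OpenSubgroup
import Mathlib.Topology.Instances.Matrix
import Mathlib.Analysis.Calculus.Deriv.Pow
import Mathlib.Analysis.Calculus.Deriv.Mul
import Mathlib.Analysis.Calculus.Deriv.Add
import Mathlib.LinearAlgebra.Matrix.BilinearForm

/-!
P092, project RP (helper213), row P2, part 3: topology of the groups of the class; subgroups with
enough curves are open; the range of the embedding is closed.
-/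

set_option linter.all false

open Filter Topology Module

namespace Vale.Agent.P092.H213.Rp

section emb

variable {k : Type} [NontriviallyNormedField k] {L : Type} [AddCommGroup L] [Module k L] {n : ℕ}
  {G : Type} [Group G] [TopologicalSpace G] {b : Basis (Fin n) k L} {ρ : G →* Module.End k L}

/-- the matrix of `ρ g` -/
noncomputable def mt (b : Basis (Fin n) k L) (ρ : G →* Module.End k L) (g : G) :
    Matrix (Fin n) (Fin n) k := LinearMap.toMatrix b b (ρ g)

theorem mt_mul (g h : G) : mt b ρ (g * h) = mt b ρ g * mt b ρ h := by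
  unfold mt
  rw [map_mul, Module.End.mul_eq_comp, LinearMap.toMatrix_comp b b b]

theorem mt_one : mt b ρ 1 = 1 := by
  unfold mt
  rw [map_one]
  exact LinearMap.toMatrix_one b

theorem mt_mul_inv (g : G) : mt b ρ g * mt b ρ g⁻¹ = 1 := by
  rw [← mt_mul, mul_inv_cancel, mt_one]

theorem mt_inv_mul (g : G) : mt b ρ g⁻¹ * mt b ρ g = 1 := by
  rw [← mt_mul, inv_mul_cancel, mt_one]

theorem mt_det (g : G) : (mt b ρ g).det ≠ 0 := by
  intro h
  have h1 := congrArg Matrix.det (mt_mul_inv (b := b) (ρ := ρ) g)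
  rw [Matrix.det_mul, h, zero_mul, Matrix.det_one] at h1
  exact zero_ne_one h1

theorem mt_inv (g : G) : mt b ρ g⁻¹ = ((mt b ρ g).det)⁻¹ • (mt b ρ g).adjugate := by
  have h1 : mt b ρ g⁻¹ = (mt b ρ g)⁻¹ := (Matrix.inv_eq_right_inv (mt_mul_inv g)).symm
  rw [h1, Matrix.inv_def, Ring.inverse_eq_inv']

theorem rho_inj (he : IsEmbedding fun g => LinearMap.toMatrix b b (ρ g)) {g h : G}
    (hgh : ρ g = ρ h) : g = h := he.injective (congrArg (LinearMap.toMatrix b b) hgh)

theorem topGroup (he : IsEmbedding fun g => LinearMap.toMatrix b b (ρ g)) :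
    IsTopologicalGroup G := by
  have hc : Continuous (mt b ρ) := he.continuous
  refine { continuous_mul := ?_, continuous_inv := ?_ }
  · rw [he.isInducing.continuous_iff]
    have e : ((fun g => LinearMap.toMatrix b b (ρ g)) ∘ fun p : G × G => p.1 * p.2) =
        fun p : G × G => mt b ρ p.1 * mt b ρ p.2 := by
      funext p
      exact mt_mul p.1 p.2
    rw [e]
    exact (hc.comp continuous_fst).matrix_mul (hc.comp continuous_snd)
  · rw [he.isInducing.continuous_iff]
    have e : ((fun g => LinearMap.toMatrix b b (ρ g)) ∘ fun g : G => g⁻¹) =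
        fun g : G => ((mt b ρ g).det)⁻¹ • (mt b ρ g).adjugate := by
      funext g
      exact mt_inv g
    rw [e]
    exact (hc.matrix_det.inv₀ mt_det).smul hc.matrix_adjugate

theorem t2Space (he : IsEmbedding fun g => LinearMap.toMatrix b b (ρ g)) : T2Space G :=
  he.t2Space

theorem locComp [LocallyCompactSpace k]
    (he : IsClosedEmbedding fun g => LinearMap.toMatrix b b (ρ g)) : LocallyCompactSpace G := by
  haveI : LocallyCompactSpace (Matrix (Fin n) (Fin n) k) :=
    inferInstanceAs (LocallyCompactSpace (Fin n → Fin n → k))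
  exact he.locallyCompactSpace

theorem secCount [SecondCountableTopology k]
    (he : IsEmbedding fun g => LinearMap.toMatrix b b (ρ g)) : SecondCountableTopology G := by
  haveI : SecondCountableTopology (Matrix (Fin n) (Fin n) k) :=
    inferInstanceAs (SecondCountableTopology (Fin n → Fin n → k))
  exact he.secondCountableTopology

end emb

section curves

variable {k : Type} [NontriviallyNormedField k] [CompleteSpace k] {L : Type} [LieRing L]
  [LieAlgebra k L] {n : ℕ} {G : Type} [Group G]

/-- entries from the continuous linear map -/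
theorem clm_entry (b : Basis (Fin n) k L) (T : Module.End k L) (i j : Fin n) :
    LinearMap.toMatrix b b T i j = clm b T (Pi.single j 1) i := by
  show _ = Matrix.toLin' (LinearMap.toMatrix b b T) (Pi.single j 1) i
  rw [Matrix.toLin'_apply, Matrix.mulVec_single_one]
  rfl

theorem Crv.of_clm {b : Basis (Fin n) k L} {ρ : G →* Module.End k L} {N : Subgroup G} {z : L}
    {γ : k → G} (hN : ∀ t, γ t ∈ N) (h0 : γ 0 = 1)
    (h : HasStrictDerivAt (fun t => clm b (ρ (γ t))) (clm b (LieAlgebra.ad k L z)) 0) :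
    Crv b ρ N z := by
  refine ⟨γ, hN, h0, fun i j => ?_⟩
  simp only [clm_entry]
  let Φ : ((Fin n → k) →L[k] (Fin n → k)) →L[k] k :=
    (ContinuousLinearMap.proj (R := k) (φ := fun _ : Fin n => k) i).comp
      (ContinuousLinearMap.apply k (Fin n → k) (Pi.single j (1 : k)))
  exact Φ.hasStrictFDerivAt.comp_hasStrictDerivAt 0 h

theorem strict_pol {F : Type} [NormedAddCommGroup F] [NormedSpace k F] (N : ℕ) (B : ℕ → F)
    (h : N = 0 → B 1 = 0) :
    HasStrictDerivAt (fun t : k => ∑ i ∈ Finset.range (N + 1), t ^ i • B i) (B 1) 0 := by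
  have h1 : ∀ i ∈ Finset.range (N + 1),
      HasStrictDerivAt (fun t : k => (t ^ i) • B i) (((i : k) * (0 : k) ^ (i - 1)) • B i) 0 := by
    intro i _
    exact (hasStrictDerivAt_pow i (0 : k)).smul_const (B i)
  have h2 := HasStrictDerivAt.fun_sum h1
  have h3 : B 1 = ∑ i ∈ Finset.range (N + 1), ((i : k) * (0 : k) ^ (i - 1)) • B i := by
    rcases Nat.eq_zero_or_pos N with h0 | h0
    · rw [h h0, h0]
      simp
    · rw [Finset.sum_eq_single 1]
      · simp
      · intro i _ hi
        rcases Nat.eq_zero_or_pos i with h | h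
        · subst h; simp
        · have : i - 1 ≠ 0 := by omega
          rw [zero_pow this, mul_zero, zero_smul]
      · intro h
        exact absurd (Finset.mem_range.2 (by omega)) h
  rw [h3]
  exact h2

theorem strict_eu [CharZero k] [Module.Finite k L] (b : Basis (Fin n) k L) (x : L) :
    HasStrictDerivAt (fun t : k => clm b (eu k (t • x))) (clm b (LieAlgebra.ad k L x)) 0 := by
  have h := strict_pol (k := k) (finrank k L)
    (fun i => clm b ((i.factorial : k)⁻¹ • LieAlgebra.ad k L x ^ i)) (fun h0 => by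
      have hL : Subsingleton L := Module.finrank_zero_iff.1 h0
      have hx : x = 0 := Subsingleton.elim _ _
      rw [hx, map_zero, pow_one, smul_zero, map_zero])
  have e : (fun t : k => clm b (eu k (t • x))) = fun t => ∑ i ∈ Finset.range (finrank k L + 1),
      (t ^ i) • clm b ((i.factorial : k)⁻¹ • LieAlgebra.ad k L x ^ i) := by
    funext t
    unfold eu ex
    rw [map_sum]
    refine Finset.sum_congr rfl fun i _ => ?_
    rw [map_smul (LieAlgebra.ad k L), smul_pow, smul_comm, map_smul]
  have e1 : clm b (LieAlgebra.ad k L x) =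
      clm b ((Nat.factorial 1 : k)⁻¹ • LieAlgebra.ad k L x ^ 1) := by
    rw [Nat.factorial_one, Nat.cast_one, inv_one, one_smul, pow_one]
  rw [e, e1]
  exact h

theorem crv_nil' [CharZero k] [Module.Finite k L] {b : Basis (Fin n) k L}
    {ρ : G →* Module.End k L} {N : Subgroup G} (hinj : Function.Injective ρ)
    (full : ∀ x : L, Nil k x → ∃ g, ρ g = eu k x) {x : L} (hx : Nil k x)
    (hN : ∀ t : k, ∀ g, ρ g = eu k (t • x) → g ∈ N) : Crv b ρ N x := by
  choose γ hγ using fun t : k => full (t • x) (hx.smul t)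
  refine Crv.of_clm (γ := γ) (fun t => hN t _ (hγ t)) ?_ ?_
  · apply hinj
    rw [hγ, zero_smul, eu_zero, map_one]
  · simp only [hγ]
    exact strict_eu b x

theorem crv_comm' [CharZero k] [Module.Finite k L] {b : Basis (Fin n) k L}
    {ρ : G →* Module.End k L} {N : Subgroup G} (hN : N.Normal) (hinj : Function.Injective ρ)
    (lie : ∀ g (x y : L), ρ g ⁅x, y⁆ = ⁅ρ g x, ρ g y⁆)
    (full : ∀ x : L, Nil k x → ∃ g, ρ g = eu k x) {m : G} (hm : m ∈ N) (g : G) {y : L}
    (hy : Nil k y) : Crv b ρ N (ρ g (ρ m y - y)) := by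
  have haut : ∀ g, IsAut (ρ g) := fun g => isAut_of_inv (S := ρ g⁻¹) (lie g)
    (by rw [← map_mul, mul_inv_cancel, map_one]) (by rw [← map_mul, inv_mul_cancel, map_one])
  choose γ hγ using fun t : k => full (t • y) (hy.smul t)
  have hγ0 : γ 0 = 1 := by
    apply hinj
    rw [hγ, zero_smul, eu_zero, map_one]
  refine Crv.of_clm (γ := fun t => g * (m * (γ t * m⁻¹ * (γ t)⁻¹)) * g⁻¹) (fun t => ?_) ?_ ?_
  · exact hN.conj_mem _ (N.mul_mem hm (hN.conj_mem _ (N.inv_mem hm) _)) _
  · simp only [hγ0]; group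
  · have e : (fun t => clm b (ρ (g * (m * (γ t * m⁻¹ * (γ t)⁻¹)) * g⁻¹))) =
        fun t => clm b (ρ g) * (clm b (eu k (t • ρ m y)) * clm b (eu k (t • (-y)))) *
          clm b (ρ g⁻¹) := by
      funext t
      have e1 : ρ (m * (γ t * m⁻¹ * (γ t)⁻¹)) = eu k (t • ρ m y) * eu k (t • (-y)) := by
        have e2 : ρ (γ t)⁻¹ = eu k (t • (-y)) := by
          have h1 : ρ (γ t) * ρ (γ t)⁻¹ = 1 := by rw [← map_mul, mul_inv_cancel, map_one]
          have h2 : eu k (t • (-y)) * ρ (γ t) = 1 := by
            rw [hγ, smul_neg]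
            exact eu_neg_mul (hy.smul t)
          calc ρ (γ t)⁻¹ = (eu k (t • (-y)) * ρ (γ t)) * ρ (γ t)⁻¹ := by rw [h2, one_mul]
            _ = eu k (t • (-y)) * (ρ (γ t) * ρ (γ t)⁻¹) := by rw [mul_assoc]
            _ = _ := by rw [h1, mul_one]
        have e3 : eu k (t • ρ m y) = ρ m * ρ (γ t) * ρ m⁻¹ := by
          rw [hγ, ← map_smul]
          exact (haut m).eu (by rw [← map_mul, mul_inv_cancel, map_one])
            (by rw [← map_mul, inv_mul_cancel, map_one]) _
        rw [e3, ← e2, map_mul, map_mul, map_mul]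
        simp only [mul_assoc]
      rw [map_mul, map_mul, map_mul, map_mul, e1, map_mul]
    rw [e]
    have h1 := (strict_eu b (ρ m y)).mul (strict_eu b (-y))
    have h2 := (h1.const_mul (clm b (ρ g))).mul_const (clm b (ρ g⁻¹))
    simp only [zero_smul, eu_zero, map_one, mul_one, one_mul] at h2
    have h3 : clm b (LieAlgebra.ad k L (ρ g (ρ m y - y))) = clm b (ρ g) *
        (clm b (LieAlgebra.ad k L (ρ m y)) + clm b (LieAlgebra.ad k L (-y))) *
          clm b (ρ g⁻¹) := by
      rw [(haut g).ad_conj (S := ρ g⁻¹) (by rw [← map_mul, mul_inv_cancel, map_one])]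
      rw [map_mul, map_mul, ← map_add, ← map_add, sub_eq_add_neg]
    rw [h3]
    exact h2

end curves

section opn

variable {k : Type} [NontriviallyNormedField k] [CompleteSpace k] [CharZero k] {L : Type}
  [LieRing L] [LieAlgebra k L] [Module.Finite k L] {n : ℕ} {G : Type} [Group G]
  [TopologicalSpace G] {b : Basis (Fin n) k L} {ρ : G →* Module.End k L}

theorem isAut_rho (lie : ∀ g (x y : L), ρ g ⁅x, y⁆ = ⁅ρ g x, ρ g y⁆) (g : G) : IsAut (ρ g) :=
  isAut_of_inv (S := ρ g⁻¹) (lie g)
    (by rw [← map_mul, mul_inv_cancel, map_one]) (by rw [← map_mul, inv_mul_cancel, map_one])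

theorem isOpen_of_crv' (hs : LieAlgebra.IsSimple k L)
    (he : IsEmbedding fun g => LinearMap.toMatrix b b (ρ g))
    (lie : ∀ g (x y : L), ρ g ⁅x, y⁆ = ⁅ρ g x, ρ g y⁆) {N : Subgroup G}
    (hN : Submodule.span k {z | Crv b ρ N z} = ⊤) : IsOpen (N : Set G) := by
  haveI := topGroup he
  have h1 := inv hs b ρ lie N hN
  have h2 : Tendsto (fun g => LinearMap.toMatrix b b (ρ g)) (𝓝 1) (𝓝 1) := by
    have := he.continuous.tendsto 1
    rwa [map_one, LinearMap.toMatrix_one] at this
  refine Subgroup.isOpen_of_mem_nhds N (g := 1) ?_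
  filter_upwards [h2.eventually h1] with g hg
  obtain ⟨g', hg', h⟩ := hg ⟨ρ g, isAut_rho lie g, rfl⟩
  have : g' = g := he.injective h
  rw [← this]; exact hg'

theorem isOpen_of_crv (hρ : RP b ρ) {N : Subgroup G}
    (hN : Submodule.span k {z | Crv b ρ N z} = ⊤) : IsOpen (N : Set G) :=
  isOpen_of_crv' hρ.simple hρ.emb.isEmbedding hρ.lie hN

theorem RP.inj (hρ : RP b ρ) : Function.Injective ρ := fun _ _ h => rho_inj hρ.emb.isEmbedding h

theorem RP.isAut (hρ : RP b ρ) (g : G) : IsAut (ρ g) := isAut_rho hρ.lie g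

theorem crv_nil (hρ : RP b ρ) {N : Subgroup G} {x : L} (hx : Nil k x)
    (hN : ∀ t : k, ∀ g, ρ g = eu k (t • x) → g ∈ N) : Crv b ρ N x :=
  crv_nil' hρ.inj hρ.full hx hN

theorem crv_comm (hρ : RP b ρ) {N : Subgroup G} (hN : N.Normal) {m : G} (hm : m ∈ N) (g : G)
    {y : L} (hy : Nil k y) : Crv b ρ N (ρ g (ρ m y - y)) :=
  crv_comm' hN hρ.inj hρ.lie hρ.full hm g hy

/-- automorphisms preserve the Killing form -/
theorem IsAut.killing {T : Module.End k L} (hT : IsAut T) (x y : L) :
    killingForm k L (T x) (T y) = killingForm k L x y :=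
  LieAlgebra.killingForm_of_equiv_apply hT.equiv x y

theorem IsAut.det_sq [LieAlgebra.IsKilling k L] (b : Basis (Fin n) k L) {T : Module.End k L}
    (hT : IsAut T) : (LinearMap.toMatrix b b T).det ^ 2 = 1 := by
  have h1 : (killingForm k L).comp T T = killingForm k L := by
    refine LinearMap.ext fun x => LinearMap.ext fun y => ?_
    exact hT.killing x y
  have h2 := LinearMap.BilinForm.toMatrix_comp b b (killingForm k L) T T
  rw [h1] at h2
  have h3 := congrArg Matrix.det h2
  rw [Matrix.det_mul, Matrix.det_mul, Matrix.det_transpose] at h3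
  have h4 : (LinearMap.BilinForm.toMatrix b (killingForm k L)).det ≠ 0 :=
    (LinearMap.BilinForm.nondegenerate_iff_det_ne_zero b).1
      (LieAlgebra.IsKilling.killingForm_nondegenerate k L)
  have h5 : (LinearMap.BilinForm.toMatrix b (killingForm k L)).det *
      ((LinearMap.toMatrix b b T).det ^ 2) =
      (LinearMap.BilinForm.toMatrix b (killingForm k L)).det * 1 := by
    rw [mul_one]
    conv_rhs => rw [h3]
    ring
  exact mul_left_cancel₀ h4 h5

/-- the condition of being an automorphism is closed -/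
theorem isClosed_autB (b : Basis (Fin n) k L) :
    IsClosed {M : Matrix (Fin n) (Fin n) k | AutB (brk b) (m2c M)} := by
  have e : {M : Matrix (Fin n) (Fin n) k | AutB (brk b) (m2c M)} =
      ⋂ u : Fin n → k, ⋂ v : Fin n → k,
        {M : Matrix (Fin n) (Fin n) k | m2c M (brk b u v) = brk b (m2c M u) (m2c M v)} := by
    ext M
    simp only [Set.mem_iInter, Set.mem_setOf_eq]
    exact Iff.rfl
  rw [e]
  refine isClosed_iInter fun u => isClosed_iInter fun v => ?_
  refine isClosed_eq (continuous_m2c.clm_apply continuous_const) ?_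
  exact ((brk b).continuous.comp (continuous_m2c.clm_apply continuous_const)).clm_apply
    (continuous_m2c.clm_apply continuous_const)

theorem lie_of_autB (b : Basis (Fin n) k L) {T : Module.End k L} (h : AutB (brk b) (clm b T))
    (x y : L) : T ⁅x, y⁆ = ⁅T x, T y⁆ := by
  have h1 := h (b.equivFun x) (b.equivFun y)
  simp only [brk_apply, clm_apply, LinearEquiv.symm_apply_apply] at h1
  exact b.equivFun.injective h1

/-- every automorphism near `1` is in the image -/
theorem near_one (h : RP0 b ρ) (hsp : Submodule.span k {x : L | Nil k x} = ⊤) :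
    ∀ᶠ M in 𝓝 (1 : Matrix (Fin n) (Fin n) k),
      (∃ T : Module.End k L, IsAut T ∧ LinearMap.toMatrix b b T = M) →
        ∃ g, LinearMap.toMatrix b b (ρ g) = M := by
  have hN : Submodule.span k {z | Crv b ρ (⊤ : Subgroup G) z} = ⊤ := by
    rw [eq_top_iff, ← hsp]
    exact Submodule.span_mono fun x hx => crv_nil' (fun _ _ h' => rho_inj h.emb h') h.full hx
      fun _ _ _ => Subgroup.mem_top _
  filter_upwards [inv h.simple b ρ h.lie ⊤ hN] with M hM hT
  obtain ⟨g, _, hg⟩ := hM hT
  exact ⟨g, hg⟩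

/-- **the range is closed** -/
theorem rp_of_rp0 (h : RP0 b ρ) (hsp : Submodule.span k {x : L | Nil k x} = ⊤) : RP b ρ := by
  haveI := h.simple
  refine ⟨h.simple, h.iso, ⟨h.emb, ?_⟩, h.lie, h.full, h.gen⟩
  refine isClosed_of_closure_subset fun M hM => ?_
  have hA : AutB (brk b) (m2c M) := by
    refine (isClosed_autB b).closure_subset_iff.2 ?_ hM
    rintro _ ⟨g, rfl⟩
    exact autB_clm b (h.lie g)
  have hD : M.det ^ 2 = 1 := by
    have hc : IsClosed {M : Matrix (Fin n) (Fin n) k | M.det ^ 2 = 1} :=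
      isClosed_eq (continuous_id.matrix_det.pow 2) continuous_const
    refine hc.closure_subset_iff.2 ?_ hM
    rintro _ ⟨g, rfl⟩
    exact (isAut_rho h.lie g).det_sq b
  have hD0 : M.det ≠ 0 := by
    intro h0
    rw [h0] at hD
    norm_num at hD
  obtain ⟨T, hT⟩ : ∃ T : Module.End k L, LinearMap.toMatrix b b T = M :=
    ⟨Matrix.toLin b b M, LinearMap.toMatrix_toLin b b M⟩
  have hTa : IsAut T := by
    refine ⟨?_, lie_of_autB b (by rw [← m2c_toMatrix, hT]; exact hA)⟩
    rw [LinearMap.isUnit_iff_isUnit_det T, ← LinearMap.det_toMatrix b, hT]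
    exact isUnit_iff_ne_zero.2 hD0
  set φ : Matrix (Fin n) (Fin n) k → Matrix (Fin n) (Fin n) k :=
    fun M' => (M'.det)⁻¹ • (M'.adjugate * M) with hφ
  have hφM : φ M = 1 := by
    rw [hφ]
    show (M.det)⁻¹ • (M.adjugate * M) = 1
    rw [Matrix.adjugate_mul, smul_smul, inv_mul_cancel₀ hD0, one_smul]
  have hφc : ContinuousAt φ M :=
    (ContinuousAt.inv₀ continuous_id.matrix_det.continuousAt hD0).smul
      (continuous_id.matrix_adjugate.matrix_mul continuous_const).continuousAt
  have h1 : Tendsto φ (𝓝 M) (𝓝 1) := by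
    have := hφc.tendsto
    rwa [hφM] at this
  have h2 := h1.eventually (near_one h hsp)
  have h3 : ∃ᶠ M' in 𝓝 M, M' ∈ Set.range fun g => LinearMap.toMatrix b b (ρ g) :=
    mem_closure_iff_frequently.1 hM
  obtain ⟨M', ⟨g, hg⟩, hM'⟩ := (h3.and_eventually h2).exists
  have h4 : φ M' = LinearMap.toMatrix b b (ρ g⁻¹ * T) := by
    have e1 : φ M' = mt b ρ g⁻¹ * M := by
      rw [mt_inv, hφ, ← hg, Matrix.smul_mul]
      rfl
    rw [e1, ← hT, Module.End.mul_eq_comp, LinearMap.toMatrix_comp b b b]
    rfl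
  obtain ⟨g', hg'⟩ := hM' ⟨ρ g⁻¹ * T, (isAut_rho h.lie _).mul hTa, h4.symm⟩
  refine ⟨g * g', ?_⟩
  show LinearMap.toMatrix b b (ρ (g * g')) = M
  have h5 : ρ g' = ρ g⁻¹ * T := by
    apply (LinearMap.toMatrix b b).injective
    rw [hg', h4]
  rw [map_mul, h5, ← mul_assoc, ← map_mul, mul_inv_cancel, map_one, one_mul, hT]

end opn

end Vale.Agent.P092.H213.Rp
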