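import Vale.Agent.P092.H213.Rp.Top
import Vale.Agent.P092.H144.Rp.Span
import Vale.Agent.P092.H268.Rp.Spl

/-!
P092, project RP (helper213): the nilpotent elements span, and `RP0` implies `RP`, without
hypotheses.
-/

set_option linter.all false

open Filter Topology Module

namespace Vale.Agent.P092.H213.Rp

theorem jm_all {k L : Type} [Field k] [CharZero k] [LieRing L] [LieAlgebra k L] [Module.Finite k L]
    (hs : LieAlgebra.IsSimple k L) (x : L) (hx : Nil k x) (h0 : x ≠ 0) :
    ∃ h y, IsSl2Triple h x y := by
  haveI := hs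
  exact H268.Rp.jm hx h0

theorem span_all {k L : Type} [Field k] [CharZero k] [LieRing L] [LieAlgebra k L]
    [Module.Finite k L] (hs : LieAlgebra.IsSimple k L) (iso : ∃ x : L, x ≠ 0 ∧ Nil k x) :
    Submodule.span k {x : L | Nil k x} = ⊤ :=
  H144.Rp.span_nil hs iso (jm_all hs) fun h x y t => H268.Rp.spl t

section

variable {k : Type} [NontriviallyNormedField k] [CompleteSpace k] [CharZero k] {L : Type}
  [LieRing L] [LieAlgebra k L] [Module.Finite k L] {n : ℕ} {G : Type} [Group G]
  [TopologicalSpace G] {b : Basis (Fin n) k L} {ρ : G →* Module.End k L}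

theorem RP0.rp (h : RP0 b ρ) : RP b ρ := rp_of_rp0 h (span_all h.simple h.iso)

end

end Vale.Agent.P092.H213.Rp
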