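import Vale.Agent.P092.H213.Rp.Inv
import Mathlib.Analysis.Calculus.Deriv.Prod
import Mathlib.Analysis.Calculus.Deriv.Comp

/-!
P092, project RP (helper213), row P2, part 2: a subgroup which contains curves whose derivatives
span the Lie algebra contains all automorphisms near `1`.
-/

set_option linter.all false

open Filter Topology Module

namespace Vale.Agent.P092.H213.Rp

section

variable {k : Type} [NontriviallyNormedField k] [CompleteSpace k] {L : Type} [LieRing L]
  [LieAlgebra k L] {n : ℕ} {G : Type} [Group G]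

/-- Endomorphisms as continuous linear maps, in a basis. -/
noncomputable def clm (b : Basis (Fin n) k L) :
    Module.End k L ≃ₐ[k] ((Fin n → k) →L[k] (Fin n → k)) :=
  (LinearMap.toMatrixAlgEquiv b).trans
    ((Matrix.toLinAlgEquiv' (R := k) (n := Fin n)).trans
      (Module.End.toContinuousLinearMap (Fin n → k)))

theorem clm_apply (b : Basis (Fin n) k L) (T : Module.End k L) (v : Fin n → k) :
    clm b T v = b.equivFun (T (b.equivFun.symm v)) := by
  show Matrix.toLin' (LinearMap.toMatrix b b T) v = _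
  have h := LinearMap.toMatrix_mulVec_repr b b T (b.equivFun.symm v)
  have h1 : ⇑(b.repr (b.equivFun.symm v)) = v := by
    have := b.equivFun.apply_symm_apply v
    rw [Basis.equivFun_apply] at this
    exact this
  rw [h1] at h
  rw [Matrix.toLin'_apply, h, Basis.equivFun_apply]

/-- The continuous linear map of a matrix. -/
noncomputable def m2c : Matrix (Fin n) (Fin n) k →ₗ[k] ((Fin n → k) →L[k] (Fin n → k)) :=
  ((Module.End.toContinuousLinearMap (𝕜 := k) (Fin n → k)).toLinearEquiv.toLinearMap).comp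
    (Matrix.toLin' (R := k) (n := Fin n) (m := Fin n)).toLinearMap

theorem m2c_toMatrix (b : Basis (Fin n) k L) (T : Module.End k L) :
    m2c (LinearMap.toMatrix b b T) = clm b T := rfl

theorem continuous_m2c : Continuous (m2c (k := k) (n := n)) :=
  LinearMap.continuous_of_finiteDimensional _

theorem m2c_one : m2c (1 : Matrix (Fin n) (Fin n) k) = 1 := by
  refine ContinuousLinearMap.ext fun v => ?_
  show Matrix.toLin' (1 : Matrix (Fin n) (Fin n) k) v = v
  rw [Matrix.toLin'_one]
  rfl

/-- The bracket in coordinates. -/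
noncomputable def brk (b : Basis (Fin n) k L) :
    (Fin n → k) →L[k] (Fin n → k) →L[k] (Fin n → k) :=
  LinearMap.toContinuousLinearMap
    ((LinearMap.toContinuousLinearMap (𝕜 := k) (E := Fin n → k) (F' := Fin n → k)).toLinearMap.comp
      (LinearMap.mk₂ k (fun u v => b.equivFun ⁅b.equivFun.symm u, b.equivFun.symm v⁆)
        (fun u u' v => by rw [map_add, add_lie, map_add])
        (fun a u v => by rw [map_smul, smul_lie, map_smul])
        (fun u v v' => by rw [map_add, lie_add, map_add])
        (fun a u v => by rw [map_smul, lie_smul, map_smul])))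

theorem brk_apply (b : Basis (Fin n) k L) (u v : Fin n → k) :
    brk b u v = b.equivFun ⁅b.equivFun.symm u, b.equivFun.symm v⁆ := rfl

theorem autB_clm (b : Basis (Fin n) k L) {T : Module.End k L}
    (h : ∀ x y : L, T ⁅x, y⁆ = ⁅T x, T y⁆) : AutB (brk b) (clm b T) := by
  intro u v
  simp only [brk_apply, clm_apply, LinearEquiv.symm_apply_apply, h]

theorem exists_ad [LieAlgebra.IsKilling k L] [Module.Finite k L] (b : Basis (Fin n) k L)
    {X : (Fin n → k) →L[k] (Fin n → k)} (hX : X ∈ DerB (brk b)) :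
    ∃ z : L, X = clm b (LieAlgebra.ad k L z) := by
  have hX' : ∀ u v, X (brk b u v) = brk b (X u) v + brk b u (X v) := hX
  let D : LieDerivation k L L :=
    { toLinearMap := (clm b).symm X
      leibniz' := fun x y => by
        have key : ∀ z : L, (clm b).symm X z = b.equivFun.symm (X (b.equivFun z)) := by
          intro z
          have h := clm_apply b ((clm b).symm X) (b.equivFun z)
          rw [AlgEquiv.apply_symm_apply, LinearEquiv.symm_apply_apply] at h
          rw [h, LinearEquiv.symm_apply_apply]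
        have h1 := hX' (b.equivFun x) (b.equivFun y)
        simp only [brk_apply, LinearEquiv.symm_apply_apply] at h1
        rw [key, key, key, h1, map_add, LinearEquiv.symm_apply_apply,
          LinearEquiv.symm_apply_apply]
        rw [← lie_skew (b.equivFun.symm (X (b.equivFun x))) y]
        abel }
  obtain ⟨z, hz⟩ := LieDerivation.IsKilling.exists_eq_ad (R := k) (L := L) D
  refine ⟨z, ?_⟩
  have h1 : LieAlgebra.ad k L z = (clm b).symm X := by
    refine LinearMap.ext fun w => ?_
    have h2 := congrArg (fun D : LieDerivation k L L => D w) hz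
    have h3 : ⁅z, w⁆ = D w := by
      rw [← h2]
      exact (LieDerivation.ad_apply_apply (R := k) (L := L) z w).symm
    exact h3
  rw [h1, AlgEquiv.apply_symm_apply]

/-- `N` contains a curve with derivative `ad z` at `0`. -/
def Crv (b : Basis (Fin n) k L) (ρ : G →* Module.End k L) (N : Subgroup G) (z : L) : Prop :=
  ∃ γ : k → G, (∀ t, γ t ∈ N) ∧ γ 0 = 1 ∧ ∀ i j,
    HasStrictDerivAt (fun t => LinearMap.toMatrix b b (ρ (γ t)) i j)
      (LinearMap.toMatrix b b (LieAlgebra.ad k L z) i j) 0

theorem Crv.strict {b : Basis (Fin n) k L} {ρ : G →* Module.End k L} {γ : k → G} {z : L}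
    (h : ∀ i j, HasStrictDerivAt (fun t => LinearMap.toMatrix b b (ρ (γ t)) i j)
      (LinearMap.toMatrix b b (LieAlgebra.ad k L z) i j) 0) :
    HasStrictDerivAt (fun t => clm b (ρ (γ t))) (clm b (LieAlgebra.ad k L z)) 0 := by
  let Φ : (Fin n → Fin n → k) →L[k] ((Fin n → k) →L[k] (Fin n → k)) :=
    LinearMap.toContinuousLinearMap
      ((m2c (k := k) (n := n)).comp (Matrix.ofLinearEquiv k).toLinearMap)
  have h1 : HasStrictDerivAt (fun t => fun i j => LinearMap.toMatrix b b (ρ (γ t)) i j)
      (fun i j => LinearMap.toMatrix b b (LieAlgebra.ad k L z) i j) 0 :=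
    hasStrictDerivAt_pi.2 fun i => hasStrictDerivAt_pi.2 fun j => h i j
  exact Φ.hasStrictFDerivAt.comp_hasStrictDerivAt 0 h1

/-- The auxiliary families. -/
def Fam (b : Basis (Fin n) k L) (ρ : G →* Module.End k L) (N : Subgroup G)
    (S : Submodule k L) : Prop :=
  ∃ (E : Type) (_ : NormedAddCommGroup E) (_ : NormedSpace k E) (_ : CompleteSpace E)
    (g : E → G) (P' : E →L[k] ((Fin n → k) →L[k] (Fin n → k))), g 0 = 1 ∧ (∀ t, g t ∈ N) ∧
    HasStrictFDerivAt (fun t => clm b (ρ (g t))) P' 0 ∧
    ∀ z ∈ S, ∃ t, P' t = clm b (LieAlgebra.ad k L z)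

theorem fam_bot (b : Basis (Fin n) k L) (ρ : G →* Module.End k L) (N : Subgroup G) :
    Fam b ρ N ⊥ := by
  refine ⟨k, inferInstance, inferInstance, inferInstance, fun _ => 1, 0, rfl, fun _ => N.one_mem,
    hasStrictFDerivAt_const _ _, fun z hz => ⟨0, ?_⟩⟩
  rw [(Submodule.mem_bot k).1 hz]
  simp

theorem Fam.sup {b : Basis (Fin n) k L} {ρ : G →* Module.End k L} {N : Subgroup G}
    {S : Submodule k L} (h : Fam b ρ N S) {z : L} (hz : Crv b ρ N z) :
    Fam b ρ N (S ⊔ Submodule.span k {z}) := by
  obtain ⟨E, i1, i2, i3, g, P', h0, hN, hP, hS⟩ := h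
  obtain ⟨γ, hγN, hγ0, hγ⟩ := hz
  have hγ' := (Crv.strict hγ).hasStrictFDerivAt
  set Q : k →L[k] ((Fin n → k) →L[k] (Fin n → k)) :=
    ContinuousLinearMap.toSpanSingleton k (clm b (LieAlgebra.ad k L z)) with hQ
  have hγ'' : HasStrictFDerivAt (fun t => clm b (ρ (γ t))) Q 0 := hγ'
  refine ⟨E × k, inferInstance, inferInstance, inferInstance, fun t => g t.1 * γ t.2,
    P'.comp (ContinuousLinearMap.fst k E k) + Q.comp (ContinuousLinearMap.snd k E k), ?_, ?_, ?_,
    ?_⟩
  · show g 0 * γ 0 = 1
    rw [h0, hγ0, one_mul]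
  · exact fun t => N.mul_mem (hN _) (hγN _)
  · have e : (fun t : E × k => clm b (ρ (g t.1 * γ t.2))) =
        fun t => clm b (ρ (g t.1)) * clm b (ρ (γ t.2)) := by
      funext t
      rw [map_mul, map_mul]
    rw [e]
    have h1 : HasStrictFDerivAt (fun t : E × k => clm b (ρ (g t.1)))
        (P'.comp (ContinuousLinearMap.fst k E k)) (0 : E × k) :=
      HasStrictFDerivAt.comp (g := fun t => clm b (ρ (g t))) (f := Prod.fst) (0 : E × k) hP
        hasStrictFDerivAt_fst
    have h2 : HasStrictFDerivAt (fun t : E × k => clm b (ρ (γ t.2)))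
        (Q.comp (ContinuousLinearMap.snd k E k)) (0 : E × k) :=
      HasStrictFDerivAt.comp (g := fun t => clm b (ρ (γ t))) (f := Prod.snd) (0 : E × k) hγ''
        hasStrictFDerivAt_snd
    refine (h1.mul' h2).congr_fderiv (ContinuousLinearMap.ext fun w => ?_)
    show clm b (ρ (g 0)) * Q w.2 + P' w.1 * clm b (ρ (γ 0)) = P' w.1 + Q w.2
    rw [h0, hγ0, map_one, map_one, one_mul, mul_one, add_comm]
  · intro x hx
    obtain ⟨y, hy, w, hw, rfl⟩ := Submodule.mem_sup.1 hx
    obtain ⟨a, rfl⟩ := Submodule.mem_span_singleton.1 hw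
    obtain ⟨t, ht⟩ := hS y hy
    refine ⟨(t, a), ?_⟩
    show P' t + Q a = _
    rw [ht, map_add, map_add, hQ, ContinuousLinearMap.toSpanSingleton_apply, map_smul, map_smul]

theorem fam_top [Module.Finite k L] {b : Basis (Fin n) k L} {ρ : G →* Module.End k L}
    {N : Subgroup G} (hN : Submodule.span k {z | Crv b ρ N z} = ⊤) : Fam b ρ N ⊤ := by
  classical
  have hfg : (Submodule.span k {z | Crv b ρ N z}).FG := by
    rw [hN]
    exact Module.Finite.fg_top
  obtain ⟨s, hs, hs'⟩ := Submodule.fg_span_iff_fg_span_finset_subset _ |>.1 hfg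
  rw [← hN, hs']
  clear hs' hfg hN
  induction s using Finset.induction_on with
  | empty => simpa using fam_bot b ρ N
  | insert z s hz ih =>
    have h1 : Crv b ρ N z := hs (by simp)
    have h2 := (ih (fun x hx => hs (by simp [Finset.mem_coe.1 hx]))).sup h1
    have e : Submodule.span k (↑(insert z s) : Set L) =
        Submodule.span k (↑s : Set L) ⊔ Submodule.span k {z} := by
      rw [Finset.coe_insert, Submodule.span_insert, sup_comm]
    rw [e]
    exact h2

/-- **Row P2**: the automorphisms near `1` lie in a subgroup with enough curves. -/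
theorem inv [CharZero k] [Module.Finite k L] (hs : LieAlgebra.IsSimple k L) (b : Basis (Fin n) k L)
    (ρ : G →* Module.End k L) (lie : ∀ g (x y : L), ρ g ⁅x, y⁆ = ⁅ρ g x, ρ g y⁆) (N : Subgroup G)
    (hN : Submodule.span k {z | Crv b ρ N z} = ⊤) :
    ∀ᶠ M in 𝓝 (1 : Matrix (Fin n) (Fin n) k),
      (∃ T : Module.End k L, IsAut T ∧ LinearMap.toMatrix b b T = M) →
        ∃ g ∈ N, LinearMap.toMatrix b b (ρ g) = M := by
  haveI := hs
  obtain ⟨E, i1, i2, i3, g, P', h0, hgN, hP, hS⟩ := fam_top hN
  have h1 := inv_core (brk b) (fun t => clm b (ρ (g t))) P' hP (by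
      show clm b (ρ (g 0)) = 1
      rw [h0, map_one, map_one])
    (fun t => ⟨clm b (ρ (g t)⁻¹), by rw [← map_mul, ← map_mul, inv_mul_cancel, map_one, map_one],
      by rw [← map_mul, ← map_mul, mul_inv_cancel, map_one, map_one]⟩)
    (fun t => autB_clm b (lie _)) (by
      intro X hX
      obtain ⟨z, rfl⟩ := exists_ad b hX
      obtain ⟨t, ht⟩ := hS z trivial
      exact ⟨t, ht⟩)
  have h2 : Tendsto (m2c (k := k) (n := n)) (𝓝 1) (𝓝 1) := by
    have := (continuous_m2c (k := k) (n := n)).tendsto 1
    rwa [m2c_one] at this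
  filter_upwards [h2.eventually h1] with M hM
  rintro ⟨T, hT, rfl⟩
  obtain ⟨t, ht⟩ := hM (by rw [m2c_toMatrix]; exact autB_clm b hT.2)
  refine ⟨g t, hgN t, ?_⟩
  rw [m2c_toMatrix] at ht
  have h3 : ρ (g t) = T := (clm b).injective ht
  rw [h3]

end

end Vale.Agent.P092.H213.Rp
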