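import Vale.Agent.P092.H213.Rp.Defs
import Mathlib.Analysis.Calculus.InverseFunctionTheorem.FDeriv
import Mathlib.Analysis.Calculus.FDeriv.Mul
import Mathlib.Analysis.Calculus.Deriv.Mul
import Mathlib.Analysis.Normed.Module.FiniteDimension

/-!
P092, project RP (helper213), row P2, part 1: near `1`, the automorphisms of a bilinear map are
products of curves of automorphisms, if the derivatives of the curves span the derivations.
-/

set_option linter.all false

open Filter Topology Module

namespace Vale.Agent.P092.H213.Rp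

section core

variable {k : Type} [NontriviallyNormedField k] [CompleteSpace k]
  {V : Type} [NormedAddCommGroup V] [NormedSpace k V] [FiniteDimensional k V]
  {E : Type} [NormedAddCommGroup E] [NormedSpace k E] [CompleteSpace E]

/-- automorphisms of a bilinear map -/
def AutB (c : V →L[k] V →L[k] V) (g : V →L[k] V) : Prop := ∀ x y, g (c x y) = c (g x) (g y)

/-- derivations of a bilinear map -/
def DerB (c : V →L[k] V →L[k] V) : Submodule k (V →L[k] V) where
  carrier := {X | ∀ x y, X (c x y) = c (X x) y + c x (X y)}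
  add_mem' {X Y} hX hY x y := by
    simp only [Set.mem_setOf_eq] at hX hY
    simp only [ContinuousLinearMap.add_apply, hX, hY, map_add]
    abel
  zero_mem' x y := by simp
  smul_mem' a X hX x y := by
    simp only [Set.mem_setOf_eq] at hX
    simp only [ContinuousLinearMap.smul_apply, hX, map_smul, smul_add]

/-- the linearised equation -/
noncomputable def dB (c : V →L[k] V →L[k] V) : (V →L[k] V) →ₗ[k] (V →L[k] V →L[k] V) where
  toFun X := (ContinuousLinearMap.compL k V V V X) ∘L c - c ∘L X -
    ((ContinuousLinearMap.compL k V V V).flip X) ∘L c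
  map_add' X Y := by
    ext x y
    simp only [map_add, ContinuousLinearMap.add_comp, ContinuousLinearMap.comp_add,
      ContinuousLinearMap.sub_apply, ContinuousLinearMap.add_apply,
      ContinuousLinearMap.comp_apply, ContinuousLinearMap.compL_apply,
      ContinuousLinearMap.flip_apply]
    abel
  map_smul' a X := by
    ext x y
    simp only [map_smul, ContinuousLinearMap.smul_comp, ContinuousLinearMap.comp_smul,
      ContinuousLinearMap.sub_apply, ContinuousLinearMap.smul_apply,
      ContinuousLinearMap.comp_apply, ContinuousLinearMap.compL_apply,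
      ContinuousLinearMap.flip_apply, RingHom.id_apply, smul_sub]

theorem dB_apply (c : V →L[k] V →L[k] V) (X : V →L[k] V) (x y : V) :
    dB c X x y = X (c x y) - c (X x) y - c x (X y) := by
  simp [dB, ContinuousLinearMap.compL_apply]

theorem dB_eq_zero {c : V →L[k] V →L[k] V} {X : V →L[k] V} (h : dB c X = 0) : X ∈ DerB c := by
  intro x y
  have h1 := dB_apply c X x y
  rw [h] at h1
  simp only [ContinuousLinearMap.zero_apply] at h1
  rw [← sub_eq_zero, h1]
  abel

/-- **The core of the inverse function argument.** -/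
theorem inv_core (c : V →L[k] V →L[k] V) (P : E → (V →L[k] V)) (P' : E →L[k] (V →L[k] V))
    (hP : HasStrictFDerivAt P P' 0) (h0 : P 0 = 1) (hu : ∀ t, ∃ Q : V →L[k] V, Q * P t = 1 ∧
      P t * Q = 1) (ha : ∀ t, AutB c (P t)) (hD : DerB c ≤ LinearMap.range (P' : E →ₗ[k] _)) :
    ∀ᶠ g in 𝓝 (1 : V →L[k] V), AutB c g → ∃ t, P t = g := by
  haveI : CompleteSpace V := FiniteDimensional.complete k V
  obtain ⟨M, hM⟩ := Submodule.exists_isCompl (DerB c)
  haveI : FiniteDimensional k M := inferInstance
  haveI : CompleteSpace M := FiniteDimensional.complete k M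
  -- the antilipschitz estimate
  have hinj : LinearMap.ker ((dB c).comp M.subtype) = ⊥ := by
    rw [LinearMap.ker_eq_bot']
    intro m hm
    have h1 : (m : V →L[k] V) ∈ DerB c := dB_eq_zero hm
    have h2 : (m : V →L[k] V) ∈ DerB c ⊓ M := ⟨h1, m.2⟩
    rw [hM.inf_eq_bot] at h2
    exact Subtype.ext (by simpa using h2)
  obtain ⟨K, hK, hA⟩ := ((dB c).comp M.subtype).exists_antilipschitzWith hinj
  have hA' : ∀ m : M, ‖(m : V →L[k] V)‖ ≤ K * ‖dB c (m : V →L[k] V)‖ := by
    intro m
    have := hA.le_mul_norm_sub m 0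
    simpa using this
  -- the map
  let F : E × M → (V →L[k] V) := fun z => P z.1 * (1 + (z.2 : V →L[k] V))
  have hF : HasStrictFDerivAt F
      ((P'.comp (ContinuousLinearMap.fst k E M)) + (M.subtypeL.comp (ContinuousLinearMap.snd k E M)))
      (0 : E × M) := by
    have h1 : HasStrictFDerivAt (fun z : E × M => P z.1) (P'.comp (ContinuousLinearMap.fst k E M))
        (0 : E × M) := by
      refine HasStrictFDerivAt.comp (g := P) (f := Prod.fst) (0 : E × M) ?_ hasStrictFDerivAt_fst
      exact hP
    have h2 : HasStrictFDerivAt (fun z : E × M => (1 : V →L[k] V) + (z.2 : V →L[k] V))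
        (M.subtypeL.comp (ContinuousLinearMap.snd k E M)) (0 : E × M) := by
      refine HasStrictFDerivAt.const_add _ ?_
      exact (M.subtypeL.comp (ContinuousLinearMap.snd k E M)).hasStrictFDerivAt
    have h3 := h1.mul' h2
    refine h3.congr_fderiv (ContinuousLinearMap.ext fun z => ?_)
    show P 0 * (z.2 : V →L[k] V) + P' z.1 * (1 + ((0 : M) : V →L[k] V)) =
      P' z.1 + (z.2 : V →L[k] V)
    rw [h0, one_mul, ZeroMemClass.coe_zero, add_zero, mul_one, add_comm]
  have hs : ((P'.comp (ContinuousLinearMap.fst k E M)) +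
      (M.subtypeL.comp (ContinuousLinearMap.snd k E M))).range = ⊤ := by
    rw [eq_top_iff]
    intro X _
    have hX : X ∈ DerB c ⊔ M := by rw [hM.sup_eq_top]; trivial
    obtain ⟨X1, h1, X2, h2, rfl⟩ := Submodule.mem_sup.1 hX
    obtain ⟨t, ht⟩ := hD h1
    refine ⟨(t, ⟨X2, h2⟩), ?_⟩
    simp only [ContinuousLinearMap.coe_coe] at ht
    simp [ht]
  have hmap := hF.map_nhds_eq_of_surj hs
  have hF0 : F 0 = 1 := by simp [F, h0]
  rw [hF0] at hmap
  -- small parameters
  have hsm : ∀ᶠ z in 𝓝 (0 : E × M), (K : ℝ) * (‖c‖ * ‖(z.2 : V →L[k] V)‖) < 1 := by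
    have : Continuous fun z : E × M => (K : ℝ) * (‖c‖ * ‖(z.2 : V →L[k] V)‖) := by fun_prop
    have h := this.tendsto (0 : E × M)
    simp only [Prod.snd_zero, ZeroMemClass.coe_zero, norm_zero, mul_zero] at h
    exact h.eventually (gt_mem_nhds one_pos)
  rw [← hmap, Filter.eventually_map]
  filter_upwards [hsm] with z hz hg
  refine ⟨z.1, ?_⟩
  obtain ⟨Q, hQ1, hQ2⟩ := hu z.1
  -- `1 + C` is an automorphism
  have hC : AutB c (1 + (z.2 : V →L[k] V)) := by
    intro x y
    have e1 : ∀ v, (1 + (z.2 : V →L[k] V)) v = Q (F z v) := by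
      intro v
      have : Q * F z = 1 + (z.2 : V →L[k] V) := by
        show Q * (P z.1 * (1 + (z.2 : V →L[k] V))) = _
        rw [← mul_assoc, hQ1, one_mul]
      rw [← this]
      rfl
    have e2 : ∀ u v, Q (c u v) = c (Q u) (Q v) := by
      intro u v
      have h1 := ha z.1 (Q u) (Q v)
      have h2 : ∀ w, P z.1 (Q w) = w := fun w => by
        have := congrArg (fun T : V →L[k] V => T w) hQ2
        simpa using this
      have h3 : ∀ w, Q (P z.1 w) = w := fun w => by
        have := congrArg (fun T : V →L[k] V => T w) hQ1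
        simpa using this
      rw [h2, h2] at h1
      rw [← h1, h3]
    rw [e1, hg x y, e2, ← e1, ← e1]
  -- the equation
  have hq : ∀ x y, dB c (z.2 : V →L[k] V) x y = c ((z.2 : V →L[k] V) x) ((z.2 : V →L[k] V) y) := by
    intro x y
    have h1 := hC x y
    simp only [ContinuousLinearMap.add_apply, ContinuousLinearMap.one_apply, map_add] at h1
    rw [dB_apply]
    have h2 : (z.2 : V →L[k] V) (c x y) = c ((z.2 : V →L[k] V) x) y +
        c x ((z.2 : V →L[k] V) y) + c ((z.2 : V →L[k] V) x) ((z.2 : V →L[k] V) y) := by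
      have := congrArg (fun w => w - c x y) h1
      simp only [add_sub_cancel_left] at this
      rw [this]
      abel
    rw [h2]
    abel
  have hn : ‖dB c (z.2 : V →L[k] V)‖ ≤ ‖c‖ * ‖(z.2 : V →L[k] V)‖ * ‖(z.2 : V →L[k] V)‖ := by
    refine ContinuousLinearMap.opNorm_le_bound _ (by positivity) fun x => ?_
    refine ContinuousLinearMap.opNorm_le_bound _ (by positivity) fun y => ?_
    rw [hq]
    calc ‖c ((z.2 : V →L[k] V) x) ((z.2 : V →L[k] V) y)‖
        ≤ ‖c‖ * ‖(z.2 : V →L[k] V) x‖ * ‖(z.2 : V →L[k] V) y‖ := c.le_opNorm₂ _ _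
      _ ≤ ‖c‖ * (‖(z.2 : V →L[k] V)‖ * ‖x‖) * (‖(z.2 : V →L[k] V)‖ * ‖y‖) := by
          gcongr <;> exact ContinuousLinearMap.le_opNorm _ _
      _ = _ := by ring
  have hz0 : (z.2 : V →L[k] V) = 0 := by
    by_contra hne
    have hpos : 0 < ‖(z.2 : V →L[k] V)‖ := norm_pos_iff.2 hne
    have h1 := (hA' z.2).trans (mul_le_mul_of_nonneg_left hn K.2)
    have h2 : ‖(z.2 : V →L[k] V)‖ ≤
        (K * (‖c‖ * ‖(z.2 : V →L[k] V)‖)) * ‖(z.2 : V →L[k] V)‖ := by
      calc _ ≤ _ := h1
        _ = _ := by ring
    nlinarith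
  show P z.1 = P z.1 * (1 + (z.2 : V →L[k] V))
  rw [hz0, add_zero, mul_one]

end core

end Vale.Agent.P092.H213.Rp
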